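import Mathlib

namespace Vale.Agent.Results.P160.QuadraticLowerBound

/-- The symmetric sign matrix determined by a choice of sign for every unordered pair
`{i, j}` (the case `i = j` included). -/
def signMatrix {V : Type*} (x : Sym2 V → ℤˣ) : Matrix V V ℤ :=
  Matrix.of fun i j => ((x s(i, j) : ℤˣ) : ℤ)

/-- `q n`: the probability that the random symmetric sign matrix is singular, i.e. the fraction
of sign choices (one independent uniform sign per unordered pair) giving determinant zero. -/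
noncomputable def q (n : ℕ) : ℝ :=
  ((Finset.univ.filter fun x : Sym2 (Fin n) → ℤˣ => (signMatrix x).det = 0).card : ℝ) /
    (Fintype.card (Sym2 (Fin n) → ℤˣ) : ℝ)

variable {V : Type*} [Fintype V] [DecidableEq V]

/-- The event that row `j` equals `ε` times row `i`. -/
def Ev (i j : V) (ε : ℤˣ) : Finset (Sym2 V → ℤˣ) :=
  Finset.univ.filter fun x => ∀ m, x s(j, m) = ε * x s(i, m)

theorem mem_Ev (i j : V) (ε : ℤˣ) (x : Sym2 V → ℤˣ) :
    x ∈ Ev i j ε ↔ ∀ m, x s(j, m) = ε * x s(i, m) := by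
  simp [Ev]

theorem Ev_symm (i j : V) (ε : ℤˣ) : Ev i j ε = Ev j i ε := by
  ext x
  rw [mem_Ev, mem_Ev]
  constructor
  · intro h m
    rw [h m, ← mul_assoc, Int.units_mul_self, one_mul]
  · intro h m
    rw [h m, ← mul_assoc, Int.units_mul_self, one_mul]

theorem det_eq_zero_of_mem_Ev (i j : V) (hij : i ≠ j) (ε : ℤˣ) (x : Sym2 V → ℤˣ)
    (hx : x ∈ Ev i j ε) : (signMatrix x).det = 0 := by
  rw [mem_Ev] at hx
  have h1 := Matrix.det_updateRow_smul (signMatrix x) j ((ε : ℤˣ) : ℤ) (signMatrix x j)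
  rw [Matrix.updateRow_eq_self] at h1
  have h2 : ((signMatrix x).updateRow j (((ε : ℤˣ) : ℤ) • signMatrix x j)).det = 0 := by
    apply Matrix.det_zero_of_row_eq hij
    rw [Matrix.updateRow_self, Matrix.updateRow_ne hij]
    ext m
    simp only [signMatrix, Matrix.of_apply, Pi.smul_apply, smul_eq_mul]
    rw [hx m]
    push_cast
    rw [← mul_assoc]
    have : ((ε : ℤˣ) : ℤ) * ((ε : ℤˣ) : ℤ) = 1 := by
      rw [← Units.val_mul, Int.units_mul_self, Units.val_one]
    rw [this, one_mul]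
  rw [h2] at h1
  have h3 : ((ε : ℤˣ) : ℤ) ≠ 0 := Units.ne_zero ε
  exact (mul_eq_zero.mp h1.symm).resolve_left h3

theorem card_signs (W : Type*) [Fintype W] [DecidableEq W] :
    Fintype.card (Sym2 W → ℤˣ) = 2 ^ (Nat.choose (Fintype.card W + 1) 2) := by
  rw [Fintype.card_fun, Fintype.card_units_int, Sym2.card]

theorem card_Ev_ge (i j : V) (hij : i ≠ j) (ε : ℤˣ) :
    2 ^ (Nat.choose (Fintype.card V) 2) ≤ (Ev i j ε).card := by
  classical
  let σ : V → {a : V // a ≠ j} := fun a => if h : a = j then ⟨i, hij⟩ else ⟨a, h⟩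
  let sg : V → ℤˣ := fun a => if a = j then ε else 1
  let ext : (Sym2 {a : V // a ≠ j} → ℤˣ) → (Sym2 V → ℤˣ) := fun y =>
    Sym2.lift ⟨fun a b => sg a * sg b * y s(σ a, σ b), by
      intro a b; show sg a * sg b * y s(σ a, σ b) = sg b * sg a * y s(σ b, σ a)
      rw [Sym2.eq_swap, mul_comm (sg a)]⟩
  have hext : ∀ y a b, ext y s(a, b) = sg a * sg b * y s(σ a, σ b) := fun y a b => rfl
  have hσj : σ j = ⟨i, hij⟩ := by simp [σ]
  have hσi : σ i = ⟨i, hij⟩ := by simp [σ, hij]
  have hmaps : ∀ y, ext y ∈ Ev i j ε := by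
    intro y
    rw [mem_Ev]
    intro m
    rw [hext, hext, hσj, hσi]
    have h1 : sg j = ε := by simp [sg]
    have h2 : sg i = 1 := by simp [sg, hij]
    rw [h1, h2, one_mul, mul_assoc]
  have hinj : Function.Injective ext := by
    intro y y' h
    funext e
    induction e using Sym2.ind with
    | _ a b =>
      have h1 := congrFun h s(a.1, b.1)
      rw [hext, hext] at h1
      have ha : σ a.1 = a := by simp [σ, a.2]
      have hb : σ b.1 = b := by simp [σ, b.2]
      have hsa : sg a.1 = 1 := by simp [sg, a.2]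
      have hsb : sg b.1 = 1 := by simp [sg, b.2]
      rw [ha, hb, hsa, hsb] at h1
      simpa using h1
  have hcardW : Fintype.card {a : V // a ≠ j} + 1 = Fintype.card V := by
    have h1 : Fintype.card {a : V // a ≠ j} = Fintype.card V - 1 := by
      simp
    have h2 : 0 < Fintype.card V := Fintype.card_pos_iff.mpr ⟨j⟩
    omega
  calc 2 ^ (Nat.choose (Fintype.card V) 2)
      = Fintype.card (Sym2 {a : V // a ≠ j} → ℤˣ) := by rw [card_signs, hcardW]
    _ = (Finset.univ : Finset (Sym2 {a : V // a ≠ j} → ℤˣ)).card := Finset.card_univ.symm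
    _ ≤ (Ev i j ε).card :=
        Finset.card_le_card_of_injOn ext (fun y _ => hmaps y) hinj.injOn

theorem card_inter_le (i j k l : V) (ε δ : ℤˣ) (hjl : j ≠ l) (hij : i ≠ j) (hil : i ≠ l)
    (hkj : k ≠ j) (hkl : k ≠ l) :
    (Ev i j ε ∩ Ev k l δ).card ≤ 2 ^ (Nat.choose (Fintype.card V - 1) 2) := by
  classical
  let σ : V → {a : V // a ≠ j ∧ a ≠ l} := fun a =>
    if h : a = j then ⟨i, hij, hil⟩ else if h' : a = l then ⟨k, hkj, hkl⟩ else ⟨a, h, h'⟩
  let sg : V → ℤˣ := fun a => if a = j then ε else if a = l then δ else 1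
  let res : (Sym2 V → ℤˣ) → (Sym2 {a : V // a ≠ j ∧ a ≠ l} → ℤˣ) :=
    fun x e => x (e.map Subtype.val)
  have hrow : ∀ x ∈ Ev i j ε ∩ Ev k l δ, ∀ a b, x s(a, b) = sg a * x s((σ a).1, b) := by
    intro x hx a b
    rw [Finset.mem_inter, mem_Ev, mem_Ev] at hx
    by_cases h : a = j
    · subst h
      have h1 : sg a = ε := by simp [sg]
      have h2 : (σ a).1 = i := by simp [σ]
      rw [h1, h2]; exact hx.1 b
    · by_cases h' : a = l
      · subst h'
        have h1 : sg a = δ := by simp [sg, h]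
        have h2 : (σ a).1 = k := by simp [σ, h]
        rw [h1, h2]; exact hx.2 b
      · have h1 : sg a = 1 := by simp [sg, h, h']
        have h2 : (σ a).1 = a := by simp [σ, h, h']
        rw [h1, h2, one_mul]
  have hkey : ∀ x ∈ Ev i j ε ∩ Ev k l δ, ∀ a b,
      x s(a, b) = sg a * sg b * res x s(σ a, σ b) := by
    intro x hx a b
    have e : res x s(σ a, σ b) = x s((σ a).1, (σ b).1) := rfl
    rw [e, hrow x hx a b, Sym2.eq_swap, hrow x hx b (σ a).1, Sym2.eq_swap, mul_assoc]
  have hinj : Set.InjOn res (Ev i j ε ∩ Ev k l δ : Finset (Sym2 V → ℤˣ)) := by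
    intro x hx x' hx' h
    funext e
    induction e using Sym2.ind with
    | _ a b => rw [hkey x hx a b, hkey x' hx' a b, h]
  have hcardW : Fintype.card {a : V // a ≠ j ∧ a ≠ l} + 1 = Fintype.card V - 1 := by
    have h1 : Fintype.card {a : V // a ≠ j ∧ a ≠ l} = ((Finset.univ.erase j).erase l).card := by
      rw [Fintype.card_subtype]
      congr 1
      ext a
      simp [and_comm]
    rw [h1, Finset.card_erase_of_mem (by simp [hjl.symm]), Finset.card_erase_of_mem (by simp),
      Finset.card_univ]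
    have h2 : 1 < Fintype.card V := Fintype.one_lt_card_iff.mpr ⟨j, l, hjl⟩
    omega
  calc (Ev i j ε ∩ Ev k l δ).card
      ≤ (Finset.univ : Finset (Sym2 {a : V // a ≠ j ∧ a ≠ l} → ℤˣ)).card :=
        Finset.card_le_card_of_injOn res (fun _ _ => Finset.mem_univ _) hinj
    _ = Fintype.card (Sym2 {a : V // a ≠ j ∧ a ≠ l} → ℤˣ) := Finset.card_univ
    _ = 2 ^ (Nat.choose (Fintype.card V - 1) 2) := by rw [card_signs, hcardW]

theorem card_pairs (n : ℕ) :
    (Finset.univ.filter fun p : Fin n × Fin n => p.1 < p.2).card * 2 = n * (n - 1) := by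
  have h1 : (Finset.univ.filter fun p : Fin n × Fin n => p.1 < p.2).card
      = ∑ j : Fin n, (j : ℕ) := by
    rw [Finset.card_filter, ← Finset.univ_product_univ, Finset.sum_product_right]
    apply Finset.sum_congr rfl
    intro j _
    rw [← Finset.card_filter]
    have : (Finset.univ.filter fun i : Fin n => i < j) = Finset.Iio j := by
      ext i; simp
    rw [this, Fin.card_Iio]
  rw [h1, Fin.sum_univ_eq_sum_range (fun i => i) n, Finset.sum_range_id_mul_two]

/-- A Bonferroni inequality with uniform bounds. -/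
theorem bonferroni {ι Ω : Type*} [DecidableEq ι] [DecidableEq Ω] (E : ι → Finset Ω) (e f : ℕ)
    (I : Finset ι) (he : ∀ t ∈ I, e ≤ (E t).card)
    (hf : ∀ t ∈ I, ∀ s ∈ I, t ≠ s → (E t ∩ E s).card ≤ f) :
    e * I.card ≤ (I.biUnion E).card + f * (I.card.choose 2) := by
  induction I using Finset.induction_on with
  | empty => simp
  | insert s I hs ih =>
    have ih' := ih (fun t ht => he t (Finset.mem_insert_of_mem ht))
      (fun t ht r hr => hf t (Finset.mem_insert_of_mem ht) r (Finset.mem_insert_of_mem hr))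
    rw [Finset.biUnion_insert, Finset.card_insert_of_notMem hs]
    have h1 := Finset.card_union_add_card_inter (E s) (I.biUnion E)
    have h2 : (E s ∩ I.biUnion E).card ≤ f * I.card := by
      rw [Finset.inter_biUnion]
      calc (I.biUnion fun x => E s ∩ E x).card ≤ ∑ t ∈ I, (E s ∩ E t).card := Finset.card_biUnion_le
        _ ≤ ∑ t ∈ I, f := Finset.sum_le_sum (fun t ht =>
            hf s (Finset.mem_insert_self _ _) t (Finset.mem_insert_of_mem ht)
              (fun h => hs (h ▸ ht)))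
        _ = f * I.card := by simp [mul_comm]
    have h3 := he s (Finset.mem_insert_self _ _)
    have h4 : (I.card + 1).choose 2 = I.card + I.card.choose 2 := by
      rw [Nat.choose_succ_succ' I.card 1]; simp
    rw [h4]
    nlinarith

theorem inter_le (n : ℕ) (i j k l : Fin n) (ε δ : ℤˣ) (hij : i < j) (hkl : k < l)
    (hne : ¬(i = k ∧ j = l ∧ ε = δ)) :
    (Ev i j ε ∩ Ev k l δ).card ≤ 2 ^ (Nat.choose (n - 1) 2) := by
  have hc : Fintype.card (Fin n) = n := Fintype.card_fin n
  have hij' : i ≠ j := ne_of_lt hij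
  have hkl' : k ≠ l := ne_of_lt hkl
  by_cases h1 : i = k
  · by_cases h2 : j = l
    · have h3 : ε ≠ δ := fun h => hne ⟨h1, h2, h⟩
      have hempty : Ev i j ε ∩ Ev k l δ = ∅ := by
        rw [Finset.eq_empty_iff_forall_notMem]
        intro x hx
        rw [Finset.mem_inter, mem_Ev, mem_Ev] at hx
        have e1 := hx.1 i
        have e2 := hx.2 i
        rw [← h1, ← h2, e1] at e2
        exact h3 (mul_right_cancel e2)
      rw [hempty]; simp
    · have := card_inter_le i j k l ε δ h2 hij' (by rw [h1]; exact hkl') (by rw [← h1]; exact hij') hkl'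
      rwa [hc] at this
  · by_cases h2 : j = l
    · have := card_inter_le j i l k ε δ h1 hij'.symm (by rw [h2]; exact hkl'.symm)
        (by rw [← h2]; exact hij'.symm) hkl'.symm
      rw [hc] at this
      rwa [Ev_symm i j, Ev_symm k l]
    · by_cases h3 : i = l
      · have hjk : j ≠ k := by
          intro h; rw [h, h3] at hij; exact absurd hkl (not_lt.mpr hij.le)
        have := card_inter_le i j l k ε δ hjk hij' h1 (by rw [← h3]; exact hij') hkl'.symm
        rw [hc] at this
        rwa [Ev_symm k l]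
      · by_cases h4 : j = k
        · have := card_inter_le j i k l ε δ h3 hij'.symm h2 (by rw [← h4]; exact hij'.symm) hkl'
          rw [hc] at this
          rwa [Ev_symm i j]
        · have := card_inter_le i j k l ε δ h2 hij' h3 (fun h => h4 h.symm) hkl'
          rwa [hc] at this

/-- For every `n`, with `u = n (n - 1) / 2 ^ n`, the singularity probability of the random
symmetric sign matrix satisfies `q n ≥ u (1 - u)`. -/
theorem result (n : ℕ) :
    ((n : ℝ) * ((n : ℝ) - 1) / 2 ^ n) * (1 - (n : ℝ) * ((n : ℝ) - 1) / 2 ^ n) ≤ q n := by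
  classical
  have hq0 : 0 ≤ q n := by unfold q; positivity
  rcases Nat.lt_or_ge n 2 with hn | hn
  · have : (n : ℝ) * ((n : ℝ) - 1) = 0 := by
      interval_cases n <;> simp
    rw [this]; simpa using hq0
  set I : Finset ((Fin n × Fin n) × ℤˣ) :=
    (Finset.univ.filter fun p : Fin n × Fin n => p.1 < p.2) ×ˢ (Finset.univ : Finset ℤˣ) with hI
  set E : (Fin n × Fin n) × ℤˣ → Finset (Sym2 (Fin n) → ℤˣ) := fun t => Ev t.1.1 t.1.2 t.2 with hE
  have hIcard : I.card = n * (n - 1) := by
    rw [hI, Finset.card_product, Finset.card_univ, Fintype.card_units_int, card_pairs]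
  have hmem : ∀ t ∈ I, t.1.1 < t.1.2 := by
    intro t ht
    rw [hI, Finset.mem_product, Finset.mem_filter] at ht
    exact ht.1.2
  have hbon := bonferroni E (2 ^ (Nat.choose n 2)) (2 ^ (Nat.choose (n - 1) 2)) I
    (fun t ht => by
      have := card_Ev_ge t.1.1 t.1.2 (ne_of_lt (hmem t ht)) t.2
      rwa [Fintype.card_fin] at this)
    (fun t ht s hs hts => inter_le n t.1.1 t.1.2 s.1.1 s.1.2 t.2 s.2 (hmem t ht) (hmem s hs)
      (fun h => hts (Prod.ext (Prod.ext h.1 h.2.1) h.2.2)))
  have hsub : I.biUnion E ⊆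
      Finset.univ.filter fun x : Sym2 (Fin n) → ℤˣ => (signMatrix x).det = 0 := by
    intro x hx
    rw [Finset.mem_biUnion] at hx
    obtain ⟨t, ht, hxt⟩ := hx
    rw [Finset.mem_filter]
    exact ⟨Finset.mem_univ _, det_eq_zero_of_mem_Ev t.1.1 t.1.2 (ne_of_lt (hmem t ht)) t.2 x hxt⟩
  have hcardle := Finset.card_le_card hsub
  set Sg : ℕ := (Finset.univ.filter fun x : Sym2 (Fin n) → ℤˣ => (signMatrix x).det = 0).card
    with hSg
  have hT : Fintype.card (Sym2 (Fin n) → ℤˣ) = 2 ^ (Nat.choose (n + 1) 2) := by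
    rw [card_signs, Fintype.card_fin]
  -- exponents
  obtain ⟨r, rfl⟩ : ∃ r, n = r + 2 := ⟨n - 2, by omega⟩
  have hc1 : Nat.choose (r + 2 + 1) 2 = Nat.choose (r + 2) 2 + (r + 2) := by
    rw [Nat.choose_succ_succ' (r + 2) 1]; simp [add_comm]
  have hc2 : Nat.choose (r + 2) 2 = Nat.choose (r + 2 - 1) 2 + (r + 1) := by
    have : r + 2 - 1 = r + 1 := by omega
    rw [this, Nat.choose_succ_succ' (r + 1) 1]; simp [add_comm]
  set f : ℕ := 2 ^ (Nat.choose (r + 2 - 1) 2) with hf
  have he : 2 ^ (Nat.choose (r + 2) 2) = f * 2 ^ (r + 1) := by rw [hc2, pow_add]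
  have hTf : Fintype.card (Sym2 (Fin (r + 2)) → ℤˣ) = f * 2 ^ (r + 1) * 2 ^ (r + 2) := by
    rw [hT, hc1, pow_add, he]
  rw [he, hIcard] at hbon
  set N : ℕ := (r + 2) * (r + 2 - 1) with hN
  have hch : 2 * N.choose 2 ≤ N * N := by
    rw [Nat.choose_two_right]
    calc 2 * (N * (N - 1) / 2) ≤ N * (N - 1) := Nat.mul_div_le _ _
      _ ≤ N * N := Nat.mul_le_mul_left _ (Nat.sub_le _ _)
  have hfpos : (0 : ℝ) < (f : ℝ) := by rw [hf]; positivity
  have hbonR : (f : ℝ) * 2 ^ (r + 1) * N ≤ (Sg : ℝ) + f * (N.choose 2 : ℝ) := by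
    have : f * 2 ^ (r + 1) * N ≤ Sg + f * N.choose 2 := le_trans hbon (by omega)
    exact_mod_cast this
  have hchR : 2 * (N.choose 2 : ℝ) ≤ (N : ℝ) * N := by exact_mod_cast hch
  have hNR : (N : ℝ) = ((r + 2 : ℕ) : ℝ) * (((r + 2 : ℕ) : ℝ) - 1) := by
    rw [hN]; push_cast
    ring
  unfold q
  rw [← hSg, hTf, ← hNR]
  push_cast
  have hp1 : (0 : ℝ) < 2 ^ (r + 1) := by positivity
  have hp2 : (2 : ℝ) ^ (r + 2) = 2 * 2 ^ (r + 1) := by rw [pow_succ]; ring
  rw [le_div_iff₀ (by positivity)]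
  rw [hp2]
  set P : ℝ := 2 ^ (r + 1) with hP
  have e1 : (N : ℝ) / (2 * P) * (1 - (N : ℝ) / (2 * P)) * ((f : ℝ) * P * (2 * P))
      = f * P * N - f * ((N : ℝ) * N / 2) := by
    field_simp
  rw [e1]
  have : (f : ℝ) * (N.choose 2 : ℝ) ≤ f * ((N : ℝ) * N / 2) := by
    apply mul_le_mul_of_nonneg_left _ hfpos.le
    linarith
  linarith

end Vale.Agent.Results.P160.QuadraticLowerBound
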